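import Mathlib
import Crest.Agent.N255.Tp.All
import Crest.Agent.N255.Wi.Abs
import Crest.Agent.N255.Tp.Phi
import Crest.Agent.N255.Wn.Re
import Crest.Agent.N255.Wd.Win

-- ▼ part N255/Wd/Two
section

/-!
# Row 255 (helper17): a basis adapted to two flags
-/

set_option autoImplicit false

namespace Crest.Agent.N255.Wd

open Set Submodule Module

variable {k : Type*} [Field k] {M : Type*} [AddCommGroup M] [Module k M]

/-- a function to `ℕ` attains its minimum on a nonempty set -/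
theorem exists_min_nat {α : Type*} {s : Set α} (f : α → ℕ) (hs : s.Nonempty) :
    ∃ a ∈ s, ∀ b ∈ s, f a ≤ f b := by
  obtain ⟨_, ⟨a, ha, rfl⟩, hm⟩ := wellFounded_lt.has_min (f '' s) (hs.image f)
  exact ⟨a, ha, fun b hb => not_lt.1 (hm _ ⟨b, hb, rfl⟩)⟩

theorem chain_min {T : Submodule k M} [FiniteDimensional k T] {𝒜 : Set (Submodule k M)}
    (h : IsChain (· ≤ ·) 𝒜) (hne : 𝒜.Nonempty) : ∃ A ∈ 𝒜, ∀ B ∈ 𝒜, A ⊓ T ≤ B := by
  obtain ⟨A, hA, hm⟩ := exists_min_nat (fun A : Submodule k M => finrank k ↥(A ⊓ T)) hne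
  refine ⟨A, hA, fun B hB => ?_⟩
  rcases h.total hA hB with e | e
  · exact inf_le_left.trans e
  · have : FiniteDimensional k ↥(A ⊓ T) := finiteDimensional_of_le inf_le_right
    have e' : B ⊓ T = A ⊓ T := eq_of_le_of_finrank_le (inf_le_inf_right T e) (hm B hB)
    exact e' ▸ inf_le_left

theorem chain_max {T : Submodule k M} [FiniteDimensional k T] {𝒜 : Set (Submodule k M)}
    (h : IsChain (· ≤ ·) 𝒜) (hne : 𝒜.Nonempty) : ∃ A ∈ 𝒜, ∀ B ∈ 𝒜, B ⊓ T ≤ A := by
  obtain ⟨A, hA, hm⟩ :=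
    exists_min_nat (fun A : Submodule k M => finrank k T - finrank k ↥(A ⊓ T)) hne
  refine ⟨A, hA, fun B hB => ?_⟩
  rcases h.total hA hB with e | e
  · have : FiniteDimensional k ↥(B ⊓ T) := finiteDimensional_of_le inf_le_right
    have h1 : finrank k ↥(B ⊓ T) ≤ finrank k T := finrank_mono inf_le_right
    have h2 : finrank k ↥(A ⊓ T) ≤ finrank k T := finrank_mono inf_le_right
    have h3 := hm B hB
    have e' : A ⊓ T = B ⊓ T := eq_of_le_of_finrank_le (inf_le_inf_right T e) (by omega)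
    exact e' ▸ inf_le_left
  · exact inf_le_left.trans e

theorem isChain_top {𝒜 : Set (Submodule k M)} (h : IsChain (· ≤ ·) 𝒜) :
    IsChain (· ≤ ·) (insert ⊤ 𝒜) := h.insert fun _ _ _ => .inr le_top

theorem isChain_bot {𝒜 : Set (Submodule k M)} (h : IsChain (· ≤ ·) 𝒜) :
    IsChain (· ≤ ·) (insert ⊥ 𝒜) := h.insert fun _ _ _ => .inl bot_le

theorem two_aux {𝒜 ℬ : Set (Submodule k M)} (hA : IsChain (· ≤ ·) 𝒜) (hB : IsChain (· ≤ ·) ℬ)
    (n : ℕ) : ∀ (T : Submodule k M) [FiniteDimensional k T], finrank k T = n →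
    ∃ s : Finset M, LinearIndepOn k id (s : Set M) ∧ span k (s : Set M) = T ∧
      ∀ C ∈ 𝒜 ∪ ℬ, C ⊓ T = span k ((s : Set M) ∩ C) := by
  classical
  induction n with
  | zero =>
    intro T _ h
    obtain rfl : T = ⊥ := finrank_eq_zero.1 h
    exact ⟨∅, by simp, by simp, fun C _ => by simp⟩
  | succ n ih =>
    intro T _ h
    have hT : ¬ T ≤ ⊥ := fun e => by
      obtain rfl := le_bot_iff.1 e
      simp at h
    obtain ⟨A, ⟨-, hAT⟩, hAm⟩ := chain_max (T := T) (𝒜 := {A ∈ insert ⊥ 𝒜 | ¬ T ≤ A})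
      ((isChain_bot hA).mono (sep_subset _ _)) ⟨⊥, mem_insert _ _, hT⟩
    obtain ⟨v₀, hv₀, hv₀A⟩ := SetLike.not_le_iff_exists.1 hAT
    obtain ⟨f, hf, hfA⟩ := exists_le_ker_of_notMem hv₀A
    obtain ⟨B, ⟨-, hBT⟩, hBm⟩ := chain_min (T := T)
      (𝒜 := {B ∈ insert ⊤ ℬ | ¬ B ⊓ T ≤ LinearMap.ker f})
      ((isChain_top hB).mono (sep_subset _ _)) ⟨⊤, mem_insert _ _, fun e => hf (e ⟨trivial, hv₀⟩)⟩
    obtain ⟨v, hv, hfv⟩ := SetLike.not_le_iff_exists.1 hBT
    rw [LinearMap.mem_ker] at hfv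
    have key : ∀ C : Submodule k M, v ∈ C →
        C ⊓ T = span k {v} ⊔ C ⊓ (T ⊓ LinearMap.ker f) := fun C hC => by
      refine le_antisymm (fun x hx => mem_sup.2 ⟨(f x / f v) • v,
        smul_mem _ _ (mem_span_singleton_self v), x - (f x / f v) • v,
        mem_inf.2 ⟨sub_mem hx.1 (smul_mem _ _ hC), mem_inf.2 ⟨sub_mem hx.2 (smul_mem _ _ hv.2), ?_⟩⟩,
        by abel⟩)
        (sup_le ((span_singleton_le_iff_mem _ _).2 ⟨hC, hv.2⟩) (inf_le_inf_left _ inf_le_left))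
      simp [LinearMap.mem_ker, div_mul_cancel₀ _ hfv]
    have : FiniteDimensional k ↥(T ⊓ LinearMap.ker f) := finiteDimensional_of_le inf_le_left
    have hvH : v ∉ T ⊓ LinearMap.ker f := fun e => hfv e.2
    have hv0 : v ≠ 0 := fun e => hfv (by rw [e, map_zero])
    have hk := key ⊤ trivial
    simp only [top_inf_eq] at hk
    have hd : finrank k ↥(T ⊓ LinearMap.ker f) = n := by
      have h1 := finrank_sup_add_finrank_inf_eq (span k {v}) (T ⊓ LinearMap.ker f)
      rw [← hk, finrank_span_singleton hv0, h,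
        (disjoint_span_singleton' hv0).2 hvH |>.symm.eq_bot, finrank_bot] at h1
      omega
    obtain ⟨s, h1, h2, h3⟩ := ih _ hd
    refine ⟨insert v s, ?_, ?_, fun C hC => ?_⟩
    · rw [Finset.coe_insert]
      exact h1.id_insert (by rwa [h2])
    · rw [Finset.coe_insert, span_insert, h2, ← hk]
    · have : C ⊓ T ≤ LinearMap.ker f ∨ v ∈ C := by
        rcases hC with hC | hC
        · by_cases e : T ≤ C
          · exact .inr (e hv.2)
          · exact .inl ((hAm C ⟨mem_insert_of_mem _ hC, e⟩).trans hfA)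
        · by_cases e : C ⊓ T ≤ LinearMap.ker f
          · exact .inl e
          · exact .inr (hBm C ⟨mem_insert_of_mem _ hC, e⟩ hv)
      rcases this with e | e
      · have hvC : v ∉ (C : Set M) := fun e' => hfv (e ⟨e', hv.2⟩)
        rw [Finset.coe_insert, insert_inter_of_notMem hvC, ← h3 C hC, ← inf_assoc]
        exact (inf_eq_left.2 e).symm
      · rw [Finset.coe_insert, insert_inter_of_mem (show v ∈ (C : Set M) from e), span_insert,
          ← h3 C hC, key C e]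

/-- **two flags have a common adapted basis** -/
theorem two_flags {𝒜 ℬ : Set (Submodule k M)} (hA : IsChain (· ≤ ·) 𝒜) (hB : IsChain (· ≤ ·) ℬ)
    (T : Submodule k M) (hT : T.FG) :
    ∃ s : Finset M, LinearIndepOn k id (s : Set M) ∧ span k (s : Set M) = T ∧
      ∀ C ∈ 𝒜 ∪ ℬ, C ⊓ T = span k ((s : Set M) ∩ C) :=
  have : FiniteDimensional k T := Module.Finite.iff_fg.2 hT
  two_aux hA hB _ T rfl


end Crest.Agent.N255.Wd
end

-- ▼ part N255/Dp/Nil
section

/-!
# Row 255 (helper77): depth along the tree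

`St Nx n j j'`: `n` steps.  `G` (classes which die after `n` steps) and `H` (cycles which come from
depth `n`) are the depth flags; `nil_hom`, `nil_coh`: they are finite for the sides of an acyclic
space; `exists_ada`: bases adapted to two flags modulo a submodule.
-/

set_option autoImplicit false
open Set Filter Topology

noncomputable section

namespace Crest.Agent.N255.Dp

open Tp Wi

/-- `n` steps of a relation -/
inductive St {J : Type} (Nx : J → J → Prop) : ℕ → J → J → Prop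
  | zero (j : J) : St Nx 0 j j
  | succ {n : ℕ} {j j' j'' : J} : Nx j j' → St Nx n j' j'' → St Nx (n + 1) j j''

namespace St

variable {J : Type} {Nx : J → J → Prop} {n m : ℕ} {j j' j'' : J}

theorem eq_of_zero (h : St Nx 0 j j') : j = j' := by cases h; rfl

theorem one (h : Nx j j') : St Nx 1 j j' := .succ h (.zero _)

theorem trans (h : St Nx n j j') (h' : St Nx m j' j'') : St Nx (m + n) j j'' := by
  induction h with
  | zero => exact h'
  | succ a _ ih => exact .succ a (ih h')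


theorem split (m : ℕ) : ∀ {j : J}, St Nx (n + m) j j'' → ∃ j', St Nx m j j' ∧ St Nx n j' j'' := by
  induction m with
  | zero => exact fun h => ⟨_, .zero _, h⟩
  | succ m ih =>
    intro j h
    cases h with
    | succ a h =>
      obtain ⟨j', h1, h2⟩ := ih h
      exact ⟨j', .succ a h1, h2⟩


theorem map {J' : Type} {Nx' : J' → J' → Prop} (f : J → J') (hf : ∀ a b, Nx a b → Nx' (f a) (f b))
    (h : St Nx n j j') : St Nx' n (f j) (f j') := by
  induction h with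
  | zero => exact .zero _
  | succ a _ ih => exact .succ (hf _ _ a) ih

theorem rel {α : Type*} [Preorder α] {E : J → α} (hE : ∀ a b, Nx a b → E a ≤ E b)
    (h : St Nx n j j') : E j ≤ E j' := by
  induction h with
  | zero => exact le_rfl
  | succ a _ ih => exact (hE _ _ a).trans ih

/-- levels grow by one at every step -/
theorem lev {T : Type} {s : J → T → ℝ} (hs : ∀ a b, Nx a b → ∀ x, s b x + 1 ≤ s a x)
    (h : St Nx n j j') (x : T) : s j' x + n ≤ s j x := by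
  induction h with
  | zero => simp
  | succ a _ ih => have := hs _ _ a x; push_cast; linarith

end St

section flags

variable {k M J : Type} [CommRing k] [AddCommGroup M] [Module k M] (Nx : J → J → Prop)
  (E : J → Submodule k M)

/-- what dies after `n` steps (`E j`: what is trivial at `j`) -/
def G (n : ℕ) (j : J) : Submodule k M := ⨅ (j' : J) (_ : St Nx n j j'), E j'

/-- what comes from depth `n` (`E j`: what lives at `j`) -/
def H (n : ℕ) (j : J) : Submodule k M := ⨆ (j' : J) (_ : St Nx n j j'), E j'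

variable {Nx E} {n m : ℕ} {j j' : J} {x : M}

theorem mem_G : x ∈ G Nx E n j ↔ ∀ j', St Nx n j j' → x ∈ E j' := by
  simp [G, Submodule.mem_iInf]



theorem G_zero : G Nx E 0 j = E j :=
  le_antisymm (fun _ h => mem_G.1 h j (.zero j)) fun _ h =>
    mem_G.2 fun _ h' => h'.eq_of_zero ▸ h


/-- a step lowers the depth -/
theorem G_step (h : St Nx m j j') : G Nx E (n + m) j ≤ G Nx E n j' :=
  fun _ hx => mem_G.2 fun _ h' => mem_G.1 hx _ (h.trans h')


theorem G_mono (hE : ∀ a b, Nx a b → E a ≤ E b) (j : J) : Monotone fun n => G Nx E n j := by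
  intro n m h x hx
  obtain ⟨l, rfl⟩ := Nat.exists_eq_add_of_le' h
  refine mem_G.2 fun j'' h'' => ?_
  obtain ⟨j', h1, h2⟩ := h''.split
  exact h2.rel hE (mem_G.1 hx _ h1)


theorem isChain_G (hE : ∀ a b, Nx a b → E a ≤ E b) (j : J) :
    IsChain (· ≤ ·) (range fun n => G Nx E n j) := by
  rintro _ ⟨n, rfl⟩ _ ⟨m, rfl⟩ -
  exact (le_total n m).imp (fun h => G_mono hE j h) fun h => G_mono hE j h

/-- equivariance: `f` moves the indices, `T` the classes -/
theorem G_map (f : J ≃ J) (hf : ∀ a b, Nx (f a) (f b) → Nx a b) (T : M →ₗ[k] M)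
    (hT : ∀ a, ∀ y ∈ E a, T y ∈ E (f a)) (hx : x ∈ G Nx E n j) : T x ∈ G Nx E n (f j) := by
  refine mem_G.2 fun j' h => ?_
  have := h.map (Nx' := Nx) f.symm fun a b hab => hf _ _ (by simpa using hab)
  rw [f.symm_apply_apply] at this
  simpa using hT _ _ (mem_G.1 hx _ this)


end flags

section top

variable {k : Type} [Field k] {T J : Type} [TopologicalSpace T] {s : J → T → ℝ} {n : ℕ}








variable {Nx : J → J → Prop}



end top

end Crest.Agent.N255.Dp

end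
end

-- ▼ part N255/Dp/Ada
section

/-!
# Row 255 (helper77): bases adapted to two flags modulo a submodule, dual cycles, depth
-/

set_option autoImplicit false
open Set Filter Topology

noncomputable section

namespace Crest.Agent.N255.Dp

open Tp Wi

section alg

variable {k M : Type} [Field k] [AddCommGroup M] [Module k M]

/-- `x` is a basis of `A` modulo `B` adapted to the submodules in `𝒞` -/
structure Ada (A B : Submodule k M) (𝒞 : Set (Submodule k M)) {ι : Type} [Fintype ι]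
    (x : ι → M) : Prop where
  mem : ∀ i, x i ∈ A
  span : ∀ φ ∈ A, ∃ c : ι → k, φ - ∑ i, c i • x i ∈ B
  ind : ∀ c : ι → k, ∑ i, c i • x i ∈ B → ∀ i, c i = 0
  ada : ∀ C ∈ 𝒞, ∀ c : ι → k, ∑ i, c i • x i ∈ C ⊔ B → ∀ i, x i ∉ C ⊔ B → c i = 0

variable {A B : Submodule k M} {𝒜 ℬ 𝒞 : Set (Submodule k M)}

theorem mem_map_mkQ {C : Submodule k M} {v : M} : B.mkQ v ∈ C.map B.mkQ ↔ v ∈ C ⊔ B := by
  rw [← Submodule.mem_comap, Submodule.comap_map_mkQ, sup_comm]

theorem exists_ada (h : FR A B) (hA : IsChain (· ≤ ·) 𝒜) (hB : IsChain (· ≤ ·) ℬ) :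
    ∃ (n : ℕ) (x : Fin n → M), Ada A B (𝒜 ∪ ℬ) x := by
  classical
  have hm : ∀ {𝒟 : Set (Submodule k M)}, IsChain (· ≤ ·) 𝒟 →
      IsChain (· ≤ ·) ((fun C : Submodule k M => C.map B.mkQ) '' 𝒟) := fun hD =>
    hD.image_of_map_rel _ _ _ fun _ _ h => Submodule.map_mono h
  obtain ⟨s, h1, h2, h3⟩ := Wd.two_flags (hm hA) (hm hB) _ h.fg_map_mkQ
  have hx : ∀ q : s, ∃ v ∈ A, B.mkQ v = q := fun q =>
    (h2 ▸ Submodule.subset_span q.2 : (q : M ⧸ B) ∈ A.map B.mkQ)
  choose x hxA hxq using hx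
  have key : ∀ c : s → k, B.mkQ (∑ i, c i • x i) = ∑ i, c i • (i : M ⧸ B) := fun c => by
    simp only [map_sum, map_smul, hxq]
  have h1' : LinearIndependent k (fun i : s => (i : M ⧸ B)) := h1
  have H : Ada A B (𝒜 ∪ ℬ) x := by
    refine ⟨hxA, fun φ hφ => ?_, fun c hc => ?_, fun C hC c hc i hi => ?_⟩
    · have : B.mkQ φ ∈ Submodule.span k (range fun i : s => (i : M ⧸ B)) := by
        rw [Subtype.range_coe_subtype]
        exact (h2.symm ▸ ⟨φ, hφ, rfl⟩ : B.mkQ φ ∈ Submodule.span k (s : Set (M ⧸ B)))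
      obtain ⟨c, hc⟩ := (Submodule.mem_span_range_iff_exists_fun k).1 this
      refine ⟨c, (Submodule.Quotient.mk_eq_zero B).1 ?_⟩
      show B.mkQ _ = 0
      rw [map_sub, key, hc, sub_self]
    · refine Fintype.linearIndependent_iff.1 h1' c ?_
      rw [← key]; exact (Submodule.Quotient.mk_eq_zero B).2 hc
    · have e := h3 (C.map B.mkQ) (hC.imp (fun h => ⟨C, h, rfl⟩) fun h => ⟨C, h, rfl⟩)
      have h4 : ∑ i, c i • (i : M ⧸ B) ∈ C.map B.mkQ ⊓ A.map B.mkQ := by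
        rw [← key]
        exact ⟨mem_map_mkQ.2 hc, ⟨_, sum_mem fun i _ => A.smul_mem _ (hxA i), rfl⟩⟩
      rw [e] at h4
      have h5 : (s : Set (M ⧸ B)) ∩ (C.map B.mkQ : Set _) =
          (fun i : s => (i : M ⧸ B)) '' {i | (i : M ⧸ B) ∈ C.map B.mkQ} := by
        ext q; constructor
        · rintro ⟨a, b⟩; exact ⟨⟨q, a⟩, b, rfl⟩
        · rintro ⟨q, b, rfl⟩; exact ⟨q.2, b⟩
      rw [h5, Finsupp.mem_span_image_iff_linearCombination] at h4
      obtain ⟨l, hl, e'⟩ := h4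
      have e2 : l = (Finsupp.linearEquivFunOnFinite k k s).symm c := by
        refine h1' ?_
        rw [e', Finsupp.linearCombination_eq_fintype_linearCombination_apply,
          Fintype.linearCombination_apply]
      have := Finsupp.notMem_support_iff.1 fun h => hi (mem_map_mkQ.1 (hxq i ▸ hl h))
      rwa [e2] at this
  refine ⟨s.card, fun i => x (s.equivFin.symm i), fun i => hxA _, fun φ hφ => ?_,
    fun c hc i => ?_, fun C hC c hc i hi => ?_⟩
  · obtain ⟨c, hc⟩ := H.span φ hφ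
    exact ⟨fun i => c (s.equivFin.symm i), by
      rwa [s.equivFin.symm.sum_comp fun i => c i • x i]⟩
  · have := H.ind (fun q => c (s.equivFin q)) (by
      rw [← s.equivFin.symm.sum_comp]; simpa using hc) (s.equivFin.symm i)
    simpa using this
  · have := H.ada C hC (fun q => c (s.equivFin q)) (by
      rw [← s.equivFin.symm.sum_comp]; simpa using hc) (s.equivFin.symm i) hi
    simpa using this

variable {ι : Type} [Fintype ι] {x : ι → M}


theorem Ada.mono (h : Ada A B 𝒞 x) {𝒟 : Set (Submodule k M)} (hD : 𝒟 ⊆ 𝒞) : Ada A B 𝒟 x :=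
  ⟨h.mem, h.span, h.ind, fun C hC => h.ada C (hD hC)⟩

/-- only basis vectors in `C` occur in an element of `C` -/
theorem Ada.coef (h : Ada A B 𝒞 x) {C : Submodule k M} (hC : C ∈ 𝒞) {φ : M} (hφ : φ ∈ C ⊔ B)
    {c : ι → k} (hc : φ - ∑ i, c i • x i ∈ B) {i : ι} (hi : x i ∉ C ⊔ B) : c i = 0 :=
  h.ada C hC c (by simpa using sub_mem hφ (Submodule.mem_sup_right hc)) i hi

/-- transport along a linear equivalence -/
theorem Ada.map {M' : Type} [AddCommGroup M'] [Module k M'] (h : Ada A B 𝒞 x) (T : M ≃ₗ[k] M') :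
    Ada (A.map (T : M →ₗ[k] M')) (B.map (T : M →ₗ[k] M'))
      ((fun C : Submodule k M => C.map (T : M →ₗ[k] M')) '' 𝒞) fun i => T (x i) := by
  have hm : ∀ (C : Submodule k M) (v : M), T v ∈ C.map (T : M →ₗ[k] M') ↔ v ∈ C := fun C v => by
    simp
  have hs : ∀ c : ι → k, ∑ i, c i • T (x i) = T (∑ i, c i • x i) := fun c => by simp
  refine ⟨fun i => (hm _ _).2 (h.mem i), ?_, fun c hc => h.ind c ?_, ?_⟩
  · rintro _ ⟨φ, hφ, rfl⟩
    obtain ⟨c, hc⟩ := h.span φ hφ
    exact ⟨c, by rw [hs]; exact ⟨_, hc, by simp⟩⟩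
  · rwa [hs, hm] at hc
  · rintro _ ⟨C, hC, rfl⟩ c hc i hi
    rw [← Submodule.map_sup] at hc hi
    rw [hs, hm] at hc
    exact h.ada C hC c hc i fun h' => hi ((hm _ _).2 h')


open Classical in
/-- the depth: the first `n` with `v ∈ C n` (zero if there is none) -/
def dp (C : ℕ → Submodule k M) (v : M) : ℕ := sInf {n | v ∈ C n}

theorem dp_mem {C : ℕ → Submodule k M} {v : M} {n : ℕ} (h : v ∈ C n) : v ∈ C (dp C v) :=
  Nat.sInf_mem (s := {n | v ∈ C n}) ⟨n, h⟩

theorem dp_le {C : ℕ → Submodule k M} {v : M} {n : ℕ} (h : v ∈ C n) : dp C v ≤ n :=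
  Nat.sInf_le (s := {n | v ∈ C n}) h


/-- **the transfer raises the depth**: `φ` lives at `j` (`m` steps before `j'`), `x` is an adapted
basis at `j'`; a basis vector occurs in `φ` only if its depth is at most `dp φ - m`. -/
theorem Ada.dp_add_le {J : Type} {Nx : J → J → Prop} {E : J → Submodule k M}
    (hE : ∀ a b, Nx a b → E a ≤ E b) {j j' : J} {m : ℕ} (hj : St Nx m j j')
    (h : Ada A (E j') 𝒞 x) (hC : ∀ n, G Nx E n j' ∈ 𝒞) {φ : M} {N : ℕ} (hφ : φ ∈ G Nx E N j)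
    {c : ι → k} (hc : φ - ∑ i, c i • x i ∈ E j') {i : ι} (hi : c i ≠ 0) :
    dp (fun n => G Nx E n j') (x i) + m ≤ dp (fun n => G Nx E n j) φ := by
  have h0 := dp_mem (C := fun n => G Nx E n j) hφ
  set d := dp (fun n => G Nx E n j) φ
  have hle : ∀ n, E j' ≤ G Nx E n j' := fun n => G_zero.ge.trans (G_mono hE j' (Nat.zero_le n))
  by_cases hd : m ≤ d
  · obtain ⟨n, hn⟩ := Nat.exists_eq_add_of_le' hd
    have h1 : φ ∈ G Nx E n j' := G_step hj (hn ▸ h0)
    have h2 : x i ∈ G Nx E n j' := by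
      by_contra h2
      exact hi (h.coef (hC n) (Submodule.mem_sup_left h1) hc (by rwa [sup_eq_left.2 (hle n)]))
    have := dp_le (C := fun n => G Nx E n j') h2
    omega
  · have h1 : φ ∈ E j' := mem_G.1 (G_mono hE j (not_le.1 hd).le h0) _ hj
    exact (hi (h.ind c (by simpa using sub_mem h1 hc) i)).elim

end alg

section top

variable {k : Type} [Field k] {T J : Type} [TopologicalSpace T] {s : J → T → ℝ} {n : ℕ}
  {Nx : J → J → Prop}





variable {ι : Type} [Fintype ι] [DecidableEq ι] {P : Sb T} {A : Submodule k (Co k (n + 1) T)}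
  {𝒞 : Set (Submodule k (Co k (n + 1) T))} {x : ι → Co k (n + 1) T}





end top

end Crest.Agent.N255.Dp

end
end

-- ▼ part N255/Wv/Var

/-!
# Row 255 (helper77): wall variables with scales (supports `Φ`)

`Var k i A B`: for the sides `A 0 ⊆ A 1 ⊆ … ⊆ B 1 ⊆ B 0` a finite family of classes for every scale.
`Win`: nested windows of constancy.  `ct`: cut classes.
-/

set_option autoImplicit false
open Set Filter Topology

noncomputable section

namespace Crest.Agent.N255.Wv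

open Tp Wi Dp Wn

variable {X : Type} [TopologicalSpace X] (k : Type) [Field k]

/-- the classes of one side of a wall -/
structure Var (i : ℕ) (A B : ℕ → Set X) where
  n : ℕ → ℕ
  h : ∀ m, Fin (n m) → Co k (i + 1) X
  mem : ∀ m j, h m j ∈ ZP k (B (m + 1)) k (i + 1)
  van : ∀ m j, h (m + 1) j ∈ (On (A m)).van k k (i + 1)
  sp0 : ∀ φ ∈ ZP k (B 1) k (i + 1), ∃ x : Fin (n 0) → k,
    φ - ∑ j, x j • h 0 j ∈ BP k (B 2) k (i + 1)
  sp : ∀ m, ∀ φ ∈ ZP k (B (m + 2)) k (i + 1), ∃ ψ ∈ ZP k (B (m + 1)) k (i + 1),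
    ∃ x : Fin (n (m + 1)) → k, φ - ψ - ∑ j, x j • h (m + 1) j ∈ BP k (B (m + 3)) k (i + 1)
  ind : ∀ m (x : Fin (n m) → k), ∑ j, x j • h m j ∈ BP k (B (m + 2)) k (i + 1) → ∀ j, x j = 0

variable {k} {i : ℕ} {A B : ℕ → Set X}

theorem cob_mem_ZP {U : Set X} {η : Co k i X} (h : η ∈ Cc k univ k i) :
    cob k η ∈ ZP k U k (i + 1) := ⟨cob_mem_Cc h, BP_le_Z (cob_mem_BP h)⟩

/-- existence; the classes of scale zero are prescribed -/
theorem exists_var (hB : Antitone B)
    (hc : ∀ m, ZP k (B (m + 2)) k (i + 1) ≤ ZP k (B (m + 1)) k (i + 1) ⊔ BP k (A m) k (i + 1))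
    (hf : ∀ m, FR (ZP k (B (m + 2)) k (i + 1)) (BP k (B (m + 3)) k (i + 1)))
    {n₀ : ℕ} (x₀ : Fin n₀ → Co k (i + 1) X) (h1 : ∀ j, x₀ j ∈ ZP k (B 1) k (i + 1))
    (h2 : ∀ φ ∈ ZP k (B 1) k (i + 1), ∃ x : Fin n₀ → k,
      φ - ∑ j, x j • x₀ j ∈ BP k (B 2) k (i + 1))
    (h3 : ∀ x : Fin n₀ → k, ∑ j, x j • x₀ j ∈ BP k (B 2) k (i + 1) → ∀ j, x j = 0) :
    ∃ V : Var k i A B, ∃ e : V.n 0 = n₀, ∀ j, V.h 0 j = x₀ (j.cast e) := by
  have key : ∀ m, ∃ (n : ℕ) (x : Fin n → Co k (i + 1) X),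
      Ada (ZP k (B (m + 2)) k (i + 1) ⊓ (On (A m)).van k k (i + 1)) (BP k (B (m + 3)) k (i + 1))
        (∅ ∪ ∅) x := fun m =>
    exists_ada ((hf m).mono inf_le_left le_rfl) IsChain.empty IsChain.empty
  choose n x hx using key
  refine ⟨⟨fun m => Nat.rec n₀ (fun m _ => n m) m, fun m => Nat.rec x₀ (fun m _ => x m) m,
    fun m => ?_, fun m j => ((hx m).mem j).2, h2, fun m φ hφ => ?_, fun m => ?_⟩, rfl, fun _ => rfl⟩
  · cases m with
    | zero => exact h1
    | succ m => exact fun j => ((hx m).mem j).1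
  · obtain ⟨ψ, h3, β, h4, rfl⟩ := Submodule.mem_sup.1 (hc m hφ)
    obtain ⟨η, e1, e2⟩ := mem_BP.1 h4
    have h5 : β ∈ ZP k (B (m + 2)) k (i + 1) := by
      simpa using sub_mem hφ (ZP_mono (hB (Nat.le_succ _)) h3)
    obtain ⟨c, hc⟩ := (hx m).span _ ⟨sub_mem h5 (cob_mem_ZP e1), e2⟩
    refine ⟨ψ, h3, c, ?_⟩
    have := add_mem hc (cob_mem_BP (U := B (m + 3)) e1)
    convert this using 1
    abel
  · cases m with
    | zero => exact h3
    | succ m => exact (hx m).ind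

/-- closed on small simplices: closed after a change on big simplices -/
theorem zp_of_sm {𝒰 : Set (Set X)} (hU : ∀ U ∈ 𝒰, IsOpen U) {W : Set X} (hW : W ⊆ ⋃₀ 𝒰)
    {A : Type} [AddCommGroup A] [Module k A] {φ : Co A i X} (h : φ ∈ Cc k univ A i)
    (h' : φ ∈ ((On W).inf (Sm 𝒰)).Z k A i) : ∃ ψ ∈ ZP k W A i, φ - ψ ∈ (Sm 𝒰).van k A i :=
  ⟨exs k 𝒰 φ, ⟨exs_Cc h, exs_Z hU hW h'⟩, by simpa using neg_mem (exs_sub (k := k) (𝒰 := 𝒰) (θ := φ))⟩

/-- the cut of `a` along `C` -/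
def ct (C : Set X) (a : Co k i X) : Co k i X := glue C a 0

section ct

variable {C U : Set X} {a : Co k i X}

theorem ct_sub : ct C a - a ∈ (On C).van k k i := glue_l a 0

theorem ct_van : ct C a ∈ (On Cᶜ).van k k i := by simpa [ct] using glue_r (A := C) a 0

theorem ct_zero {σ : Sx i X} (h : a σ = 0) : ct C a σ = 0 := by
  simp [ct, glue, cup, fr_self, h]

theorem ct_mem_van {P : Sb X} (h : a ∈ P.van k k i) : ct C a ∈ P.van k k i :=
  fun σ hσ => ct_zero (h σ hσ)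

theorem ct_Cc (h : a ∈ Cc k U k i) : ct C a ∈ Cc k U k i :=
  let ⟨K, a, b, c⟩ := h; ⟨K, a, b, ct_mem_van c⟩

theorem ct_ZP (h : a ∈ ZP k U k i) (hC : C ⊆ U) : ct C a ∈ ZP k C k i :=
  ⟨ct_Cc h.1, by simpa using add_mem (Sb.van_le_Z (ct_sub (C := C) (a := a))) (ZP_mono hC h).2⟩


end ct

namespace Var

variable (V : Var k i A B)

/-- the variables of scale at most `K` -/
abbrev Ix (K : ℕ) : Type := Σ m : Fin (K + 1), Fin (V.n m)

variable {V} {K : ℕ}

/-- the scale -/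
def sc (q : V.Ix K) : ℕ := q.1

/-- the class -/
def cl (q : V.Ix K) : Co k (i + 1) X := V.h q.1 q.2


theorem cl_mem (q : V.Ix K) : cl q ∈ ZP k (B (sc q + 1)) k (i + 1) := V.mem _ _

theorem cl_van (q : V.Ix K) {m : ℕ} (h : sc q = m + 1) : cl q ∈ (On (A m)).van k k (i + 1) := by
  obtain ⟨⟨a, ha⟩, j⟩ := q
  obtain rfl : a = m + 1 := h
  exact V.van m j

theorem cl_van' (hA : Monotone A) (q : V.Ix K) {m : ℕ} (h : m < sc q) :
    cl q ∈ (On (A m)).van k k (i + 1) := by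
  obtain ⟨l, hl⟩ := Nat.exists_eq_add_of_lt h
  exact van_mono (hA (Nat.le_add_right m l)) (cl_van q hl)

theorem single_eq_zero (a : Fin (K + 1)) (x : Fin (V.n a) → k) {q : V.Ix K} (h : sc q ≠ a) :
    Pi.single (M := fun b : Fin (K + 1) => Fin (V.n b) → k) a x q.1 q.2 = 0 := by
  rw [Pi.single_eq_of_ne fun e => h (congrArg Fin.val e)]; rfl

theorem sum_single {M : Type} [AddCommGroup M] [Module k M] (a : Fin (K + 1)) (x : Fin (V.n a) → k)
    (f : V.Ix K → M) : ∑ q : V.Ix K, (Pi.single (M := fun b : Fin (K + 1) => Fin (V.n b) → k) a x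
      q.1 q.2) • f q = ∑ j, x j • f ⟨a, j⟩ := by
  rw [Fintype.sum_sigma, Finset.sum_eq_single a]
  · simp
  · intro b _ hb; simp [Pi.single_eq_of_ne hb]
  · simp

/-- **span**: classes on `B (m + 1)` are, on `B (m + 2)`, combinations of scale at most `m` -/
theorem span (hB : Antitone B) {m : ℕ} (hm : m ≤ K) {φ : Co k (i + 1) X}
    (hφ : φ ∈ ZP k (B (m + 1)) k (i + 1)) : ∃ x : V.Ix K → k, (∀ q, m < sc q → x q = 0) ∧
      φ - ∑ q, x q • cl q ∈ BP k (B (m + 2)) k (i + 1) := by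
  induction m generalizing φ with
  | zero =>
    obtain ⟨x, hx⟩ := V.sp0 φ hφ
    exact ⟨fun q => Pi.single (M := fun b : Fin (K + 1) => Fin (V.n b) → k) ⟨0, K.succ_pos⟩ x q.1 q.2,
      fun q hq => single_eq_zero ⟨0, K.succ_pos⟩ x hq.ne', by rw [sum_single]; exact hx⟩
  | succ m ih =>
    obtain ⟨ψ, h1, x, hx⟩ := V.sp m φ hφ
    obtain ⟨y, h2, h3⟩ := ih (by omega) h1
    refine ⟨fun q => y q + Pi.single (M := fun b : Fin (K + 1) => Fin (V.n b) → k)
      ⟨m + 1, by omega⟩ x q.1 q.2, fun q hq => ?_, ?_⟩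
    · beta_reduce
      rw [h2 q (by omega), single_eq_zero ⟨m + 1, by omega⟩ x hq.ne', add_zero]
    · simp only [add_smul, Finset.sum_add_distrib]
      rw [sum_single]
      have := add_mem hx (BP_mono (hB (Nat.le_succ _)) h3)
      convert this using 1
      simp only [cl]; abel

/-- the cut class -/
def cc (C : ℕ → Set X) (q : V.Ix K) : Co k (i + 1) X := ct (C (sc q)) (cl q)

variable {C : ℕ → Set X}


theorem cc_sub (q : V.Ix K) : cc C q - cl q ∈ (On (C (sc q))).van k k (i + 1) := ct_sub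








/-- the number of variables of scale at most `m` does not depend on `K` -/
theorem card_le (m : ℕ) : (Finset.univ.filter fun q : V.Ix K => sc q ≤ m).card ≤
    ∑ a ∈ Finset.range (m + 1), V.n a := by
  classical
  have : ∑ a ∈ Finset.range (m + 1), V.n a =
      ((Finset.range (m + 1)).sigma fun a => (Finset.univ : Finset (Fin (V.n a)))).card := by simp
  rw [this]
  refine Finset.card_le_card_of_injOn (fun q => ⟨q.1, q.2⟩) (fun q hq => ?_) ?_
  · have : sc q ≤ m := by simpa using hq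
    simpa [Nat.lt_succ_iff, sc] using this
  · rintro ⟨⟨a, ha⟩, j⟩ - ⟨⟨b, hb⟩, j'⟩ - e
    obtain ⟨rfl, e'⟩ := Sigma.mk.inj_iff.1 e
    obtain rfl := eq_of_heq e'
    rfl

end Var

/-- nested windows of constancy for both sides -/
structure Win (k : Type) [Field k] (i : ℕ) (s : C(X, ℝ)) (l r : ℕ → ℝ) : Prop where
  ml : StrictMono l
  ar : StrictAnti r
  lt : ∀ m n, l m < r n
  cl : ∀ m, ∀ a ∈ Icc (l (m + 1)) (r (m + 1)), ∀ b ∈ Icc (l (m + 1)) (r (m + 1)),
    ZP k (lo s a) k (i + 1) ≤ ZP k (lo s b) k (i + 1) ⊔ BP k (lo s (l m)) k (i + 1)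
  cr : ∀ m, ∀ a ∈ Icc (l (m + 1)) (r (m + 1)), ∀ b ∈ Icc (l (m + 1)) (r (m + 1)),
    ZP k (hi s a) k (i + 1) ≤ ZP k (hi s b) k (i + 1) ⊔ BP k (hi s (r m)) k (i + 1)

/-- tameness of both sides between the levels `a` and `b` -/
structure Tm (k : Type) [Field k] (i : ℕ) (s : C(X, ℝ)) (a b : ℝ) : Prop where
  lo : ∀ t t', a ≤ t → t < t' → t' ≤ b → FR (ZP k (lo s t') k (i + 1)) (BP k (lo s t) k (i + 1))
  hi : ∀ t t', a ≤ t → t < t' → t' ≤ b → FR (ZP k (hi s t) k (i + 1)) (BP k (hi s t') k (i + 1))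

variable {s s' : C(X, ℝ)} {l r : ℕ → ℝ} {a b : ℝ}

/-- windows exist, with any further dense property `Q` -/
theorem Tm.exists_win (h : Tm k i s a b) (hab : a < b) (Q : ℕ → ℝ → ℝ → ℝ → ℝ → Prop)
    (hQ : ∀ n l r, a ≤ l → l < r → r ≤ b → Wd.DenseIn l r (Q n l r)) :
    ∃ l r : ℕ → ℝ, l 0 = a ∧ r 0 = b ∧ Win k i s l r ∧
      ∀ n, Q n (l n) (r n) (l (n + 1)) (r (n + 1)) := by
  obtain ⟨l, r, h1, h2, h3, h4, h5, h6⟩ := Wd.exists_nest_dense hab (fun n l r a b =>
    ((∀ x ∈ Icc a b, ∀ y ∈ Icc a b,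
      ZP k (Wn.lo s x) k (i + 1) ≤ ZP k (Wn.lo s y) k (i + 1) ⊔ BP k (Wn.lo s l) k (i + 1)) ∧
    ∀ x ∈ Icc a b, ∀ y ∈ Icc a b,
      ZP k (Wn.hi s x) k (i + 1) ≤ ZP k (Wn.hi s y) k (i + 1) ⊔ BP k (Wn.hi s r) k (i + 1)) ∧
      Q n l r a b) fun n l r h1 h2 h3 =>
    ((Wd.dense_fr (.inr fun _ _ _ _ h => ZP_mono (lo_mono h)) fun t ht =>
      h.lo l t h1 ht.1 (ht.2.le.trans h3)).and (Wd.dense_fr
        (.inl fun _ _ _ _ h => ZP_mono (hi_mono h)) fun t ht =>
          h.hi t r (h1.trans ht.1.le) ht.2 h3)).and (hQ n l r h1 h2 h3)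
  exact ⟨l, r, h1, h2, ⟨h3, h4, h5, fun m => (h6 m).1.1, fun m => (h6 m).1.2⟩, fun n => (h6 n).2⟩

theorem lo_rev (e : ∀ x, s' x = 1 - s x) (t : ℝ) : lo s' (1 - t) = hi s t := by
  ext x; simp only [lo, hi, mem_setOf_eq, e]; constructor <;> intro h <;> linarith

theorem hi_rev (e : ∀ x, s' x = 1 - s x) (t : ℝ) : hi s' (1 - t) = lo s t := by
  ext x; simp only [lo, hi, mem_setOf_eq, e]; constructor <;> intro h <;> linarith

/-- the reversed edge -/
theorem Win.rev (h : Win k i s l r) (e : ∀ x, s' x = 1 - s x) :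
    Win k i s' (fun m => 1 - r m) fun m => 1 - l m := by
  refine ⟨fun _ _ hm => sub_lt_sub_left (h.ar hm) _, fun _ _ hm => sub_lt_sub_left (h.ml hm) _,
    fun m n => sub_lt_sub_left (h.lt n m) _, fun m a ha b hb => ?_, fun m a ha b hb => ?_⟩
  · have := h.cr m (1 - a) ⟨by linarith [ha.2], by linarith [ha.1]⟩ (1 - b)
      ⟨by linarith [hb.2], by linarith [hb.1]⟩
    rwa [← lo_rev e, ← lo_rev e, ← lo_rev e, sub_sub_cancel, sub_sub_cancel] at this
  · have := h.cl m (1 - a) ⟨by linarith [ha.2], by linarith [ha.1]⟩ (1 - b)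
      ⟨by linarith [hb.2], by linarith [hb.1]⟩
    rwa [← hi_rev e, ← hi_rev e, ← hi_rev e, sub_sub_cancel, sub_sub_cancel] at this

theorem Tm.rev (h : Tm k i s a b) (e : ∀ x, s' x = 1 - s x) : Tm k i s' (1 - b) (1 - a) := by
  refine ⟨fun t t' h1 h2 h3 => ?_, fun t t' h1 h2 h3 => ?_⟩
  · have := h.hi (1 - t') (1 - t) (by linarith) (by linarith) (by linarith)
    rwa [← lo_rev e, ← lo_rev e, sub_sub_cancel, sub_sub_cancel] at this
  · have := h.lo (1 - t') (1 - t) (by linarith) (by linarith) (by linarith)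
    rwa [← hi_rev e, ← hi_rev e, sub_sub_cancel, sub_sub_cancel] at this


theorem Win.anti_r (h : Win k i s l r) : Antitone fun m => lo s (r m) :=
  fun _ _ hm => lo_mono (h.ar.antitone hm)

theorem Win.fr (h : Win k i s l r) (t : Tm k i s (l 0) (r 0)) (m : ℕ) :
    FR (ZP k (lo s (r m)) k (i + 1)) (BP k (lo s (r (m + 1))) k (i + 1)) :=
  t.lo _ _ (h.lt _ _).le (h.ar (Nat.lt_succ_self m)) (h.ar.antitone (Nat.zero_le m))

/-- the variables of the lower side -/
theorem Win.exists_var (h : Win k i s l r) (t : Tm k i s (l 0) (r 0)) {n₀ : ℕ}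
    (x₀ : Fin n₀ → Co k (i + 1) X) (h1 : ∀ j, x₀ j ∈ ZP k (lo s (r 1)) k (i + 1))
    (h2 : ∀ φ ∈ ZP k (lo s (r 1)) k (i + 1), ∃ x : Fin n₀ → k,
      φ - ∑ j, x j • x₀ j ∈ BP k (lo s (r 2)) k (i + 1))
    (h3 : ∀ x : Fin n₀ → k, ∑ j, x j • x₀ j ∈ BP k (lo s (r 2)) k (i + 1) → ∀ j, x j = 0) :
    ∃ V : Var k i (fun m => lo s (l m)) fun m => lo s (r m),
      ∃ e : V.n 0 = n₀, ∀ j, V.h 0 j = x₀ (j.cast e) :=
  Wv.exists_var h.anti_r (fun m => h.cl m _ ⟨(h.lt _ _).le, h.ar.antitone (Nat.le_succ _)⟩ _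
    ⟨(h.lt _ _).le, le_rfl⟩) (fun m => h.fr t (m + 2)) x₀ h1 h2 h3

end Crest.Agent.N255.Wv

end
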