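import Crest.Agent.N255.Wn.Re
import Crest.Agent.N255.Tp.Phi
import Crest.Agent.N255.En.Deg
import Crest.Agent.N255.Wd.Win

/-!
# Row 255 (helper17): absolute classes versus classes with compact support on the sides of a wall
-/

set_option autoImplicit false
open Set

noncomputable section

namespace Crest.Agent.N255.Wv

open Tp Wn Wd En Nv Pt Lv

section abs

variable {X : Type} [TopologicalSpace X] {k : Type} [Field k] {A : Type} [AddCommGroup A] [Module k A]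
  {n : ℕ} {L R K Fa : Set X}

/-- absolute Mayer–Vietoris injectivity in an acyclic space -/
theorem mv_inj_abs (hX : Acy k (univ : Set X) univ) (hL : IsOpen L) (hR : IsOpen R) (hu : L ∪ R = univ)
    {a b : Co A (n + 1) X} (ha : a ∈ (On L).Z k A (n + 1)) (hb : b ∈ (On R).Z k A (n + 1))
    (h : a - b ∈ (On (L ∩ R)).van k A (n + 1)) : a ∈ (On L).Ex k A (n + 1) :=
  Det.ex_of_cyc _ a fun c h1 h2 => by
    obtain ⟨x, hx, y, hy, e⟩ := split_B smChS_holds hL hR (hu ▸ hX (n + 1) ⟨mem_ch_univ c, h2⟩)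
      (Submodule.mem_sup_left h1)
    have m : bd k y ∈ (On (L ∩ R)).ch k (n + 1) := by
      rw [ch_inter]
      exact ⟨by simpa [e] using Submodule.sub_mem _ h1 (Sb.bd_mem hx), Sb.bd_mem hy⟩
    rw [e, map_add, Sb.ev_B ha (Sb.bd_mem_B hx), Sb.ev_congr h m, Sb.ev_B hb (Sb.bd_mem_B hy), add_zero]


/-- a class of the side `L` which dies on the far part of the overlap has a representative with
compact support -/
theorem cmp (hX : Acy k (univ : Set X) univ) (hc : Hc0 k X A (n + 2)) (hL : IsOpen L) (hR : IsOpen R)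
    (hu : L ∪ R = univ) (hK : IsCompact K) (hW : L ∩ R ⊆ K ∪ Fa) {φ : Co A (n + 1) X}
    (hφ : φ ∈ (On L).Z k A (n + 1)) (hf : φ ∈ (On (L ∩ R ∩ Fa)).Ex k A (n + 1)) :
    φ ∈ ZP k L A (n + 1) ⊔ (On L).Ex k A (n + 1) := by
  obtain ⟨η, hη⟩ := Sb.mem_Ex.1 hf
  have z : φ - cob k η ∈ (On L).Z k A (n + 1) :=
    Submodule.sub_mem _ hφ (by rw [Sb.mem_Z, cob_cob]; exact Submodule.zero_mem _)
  have r := Sb.sub_res (k := k) (P := On (L ∩ R)) (φ - cob k η)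
  have m : (On (L ∩ R)).res (φ - cob k η) ∈ ZP k (L ∩ R) A (n + 1) :=
    ⟨res_Cc_of_far hK hW hη, by
      simpa using Submodule.sub_mem _ (Sb.Z_mono (On_le inter_subset_left) z) (Sb.van_le_Z r)⟩
  obtain ⟨b, hb, ha⟩ := mv_surj hL hR hu hc m
  have e := mv_inj_abs hX hL hR hu (Submodule.sub_mem _ z ha.2) hb.2 (by convert r using 1; abel)
  refine Submodule.mem_sup.2 ⟨_, ha, _, Submodule.add_mem _ e (Submodule.mem_sup_left ⟨η, rfl⟩), ?_⟩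
  abel

/-- the same with exactness on the small simplices only -/
theorem cmp_sm (hX : Acy k (univ : Set X) univ) (hc : Hc0 k X A (n + 2)) (hL : IsOpen L) (hR : IsOpen R)
    (hu : L ∪ R = univ) (hK : IsCompact K) (hW : L ∩ R ⊆ K ∪ Fa) {𝒰 : Set (Set X)}
    (ho : ∀ U ∈ 𝒰, IsOpen U) (hv : univ ⊆ ⋃₀ 𝒰) {φ : Co A (n + 1) X}
    (hφ : φ ∈ (On L).Z k A (n + 1)) (hf : φ ∈ ((On (L ∩ R ∩ Fa)).inf (Sm 𝒰)).Ex k A (n + 1)) :
    φ ∈ ZP k L A (n + 1) ⊔ (On L).Ex k A (n + 1) :=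
  cmp hX hc hL hR hu hK hW hφ (ex_of_sm ho ((subset_univ _).trans hv)
    (Sb.Z_mono (On_le (inter_subset_left.trans inter_subset_left)) hφ) hf)

/-- level form: the side `{s < t}`, the window `(a, t)`, far means `R < r` -/
theorem cmp_lo (hX : Acy k (univ : Set X) univ) (hc : Hc0 k X A (n + 2)) {s r : C(X, ℝ)} {a t ρ : ℝ}
    (h : a < t) (hK : IsCompact (box s r a t ρ)) {𝒰 : Set (Set X)} (ho : ∀ U ∈ 𝒰, IsOpen U)
    (hv : univ ⊆ ⋃₀ 𝒰) {φ : Co A (n + 1) X} (hφ : φ ∈ (On (lo s t)).Z k A (n + 1))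
    (hf : φ ∈ ((On (fw s r a t ρ)).inf (Sm 𝒰)).Ex k A (n + 1)) :
    φ ∈ ZP k (lo s t) A (n + 1) ⊔ (On (lo s t)).Ex k A (n + 1) :=
  cmp_sm (Fa := hi r ρ) hX hc isOpen_lo isOpen_hi (lo_union_hi h) hK
    (fun x hx => (le_or_gt (r x) ρ).imp (fun q => ⟨q, le_of_lt hx.2, le_of_lt hx.1⟩) id) ho hv hφ
    (by rwa [← win_eq, ← fw_eq])


end abs



variable {ι S : Type} [DecidableEq ι] [MulAction (FreeGroup ι) S] {w : Wl ι S}
  {F : Subgroup (FreeGroup ι)} {X : Type} [TopologicalSpace X] [MulAction F X]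

/-- the far cocycle dual to the meridian of the wall `e` seen from behind -/
def al (N : Lev w F X) (M : Md w) (k : Type) [CommRing k] (e : Ed ι) : Co k 1 X :=
  rs N.lab (t1 k (M.mer e))

/-- the far part of the side `{s e < t}` -/
def far (N : Lev w F X) (e : Ed ι) (t ρ : ℝ) : Set X := N.Reg {e} (fun _ => t) ρ

theorem mem_far {N : Lev w F X} {e : Ed ι} {t ρ : ℝ} {x : X} :
    x ∈ far N e t ρ ↔ ρ < N.r x ∧ N.s e x < t := by simp [far, Lev.Reg]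

theorem far_mono {N : Lev w F X} {e : Ed ι} {t t' ρ ρ' : ℝ} (h : t ≤ t') (h' : ρ ≤ ρ') :
    far N e t ρ' ⊆ far N e t' ρ := N.Reg_mono (fun _ _ => h) h'

theorem far_le {N : Lev w F X} {e : Ed ι} {t ρ : ℝ} : far N e t ρ ⊆ lo (N.s e) t :=
  fun _ h => (mem_far.1 h).2

theorem fw_le_far {N : Lev w F X} {e : Ed ι} {a t ρ : ℝ} : fw (N.s e) N.r a t ρ ⊆ far N e t ρ :=
  fun _ h => mem_far.2 ⟨h.1, h.2.2⟩

theorem lo_rv (N : Lev w F X) (e : Ed ι) (t : ℝ) : lo (N.s (rev e)) (1 - t) = hi (N.s e) t :=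
  Set.ext fun x => by simp [lo, hi, N.s_rev]

theorem hi_rv (N : Lev w F X) (e : Ed ι) (t : ℝ) : hi (N.s (rev e)) (1 - t) = lo (N.s e) t :=
  Set.ext fun x => by simp [lo, hi, N.s_rev]

theorem face_one (e : Ed ι) : Face ({e} : Finset (Ed ι)) := .inl fun _ ha _ hb h =>
  (h ((Finset.mem_singleton.1 ha).trans (Finset.mem_singleton.1 hb).symm)).elim

omit [DecidableEq ι] in
theorem adm_one (e : Ed ι) {t t' : ℝ} (h0 : 0 < t) (h : t < t') (h1 : t' < 1) :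
    Adm ({e} : Finset (Ed ι)) (fun _ => t) fun _ => t' := fun a ha =>
  ⟨h0, h, h1, fun q => by
    have := (Finset.mem_singleton.1 q).trans (Finset.mem_singleton.1 ha).symm
    exact absurd (congrArg pos this) fun p => by rw [eq_iff_iff, pos_rev] at p; exact not_iff_self p⟩

/-- `al` is a cocycle far out -/
theorem al_Z (N : Lev w F X) (M : Md w) (e : Ed ι) {t : ℝ} (h : t < 1) :
    ∃ ρ, ∀ (k : Type) [CommRing k], al N M k e ∈ (N.Sb (far N e t ρ)).Z k k 1 :=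
  let ⟨ρ, H⟩ := N.rs_Z {e} (t := fun _ => t) fun _ _ => h
  ⟨ρ, fun k _ => H k k 1 _ (M.td_t1 k e fun _ q => q e (Finset.mem_singleton_self e))⟩

/-- far cocycles behind one wall are multiples of `al` -/
theorem exists_per {k : Type} [CommRing k] (E : End w F k X) (M : Md w) (e : Ed ι) {t t' : ℝ}
    (h0 : 0 < t) (h : t < t') (h1 : t' < 1) (ρ : ℝ) : ∃ ρ', ∀ (A : Type) [AddCommGroup A] [Module k A]
      (φ : Co A 1 X), φ ∈ (E.Sb (far E.toLev e t' ρ)).Z k A 1 → ∃ a : A,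
      (φ - fun σ => al E.toLev M k e σ • a) ∈ (E.Sb (far E.toLev e t ρ')).Ex k A 1 := by
  obtain ⟨ρ₁, H⟩ := E.l1 {e} _ _ (adm_one e h0 h h1) ρ
  obtain ⟨ρ₂, G⟩ := E.vl_mem {e} (t := fun _ => t) fun _ _ => h.trans h1
  refine ⟨max ρ₁ ρ₂, fun A _ _ φ hφ => ?_⟩
  obtain ⟨ψ, p, q⟩ := H 0 (Nat.zero_le 1) A φ hφ
  obtain ⟨a, η, u⟩ := M.h1 {e} (face_one e) A ψ (td_int k ψ ▸ p)
  refine ⟨a e, ?_⟩
  have v : (rs E.lab ψ - fun σ => al E.toLev M k e σ • a e) ∈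
      (E.Sb (far E.toLev e t ρ₂)).Ex k A 1 := Sb.mem_Ex.2 ⟨rs E.lab η, fun σ hσ => by
    rw [cob_rs, td_int]
    simp [rs_apply, u _ (G 1 σ hσ), al, t1, Int.cast_smul_eq_zsmul]⟩
  have := Submodule.add_mem _ (Sb.Ex_mono (sb_mono (far_mono le_rfl (le_max_left ρ₁ ρ₂))) q)
    (Sb.Ex_mono (sb_mono (far_mono le_rfl (le_max_right ρ₁ ρ₂))) v)
  simpa using this

variable {k : Type} [Field k]

theorem exists_per' (E : End w F k X) (M : Md w) (e : Ed ι) {t t' : ℝ}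
    (h0 : 0 < t) (h : t < t') (h1 : t' < 1) (ρ : ℝ) : ∃ ρ', ∀ φ : Co k 1 X,
      φ ∈ (E.Sb (far E.toLev e t' ρ)).Z k k 1 → ∃ a : k,
      φ - a • al E.toLev M k e ∈ (E.Sb (far E.toLev e t ρ')).Ex k k 1 := by
  obtain ⟨ρ', H⟩ := exists_per E M e h0 h h1 ρ
  refine ⟨ρ', fun φ hφ => (H k φ hφ).imp fun a q => ?_⟩
  convert q using 2
  funext σ
  simp [mul_comm]

/-- `h` is a cocycle of the side `{s e < t}` which extends the far cocycle `al` -/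
def ExtBy (N : Lev w F X) (M : Md w) (k : Type) [CommRing k] (e : Ed ι) (t ρ : ℝ) (h : Co k 1 X) : Prop :=
  h ∈ (On (lo (N.s e) t)).Z k k 1 ∧ h - al N M k e ∈ (N.Sb (far N e t ρ)).van k k 1

/-- `al` extends over the side `{s e < t}` (case B) -/
def Ext (N : Lev w F X) (M : Md w) (k : Type) [CommRing k] (e : Ed ι) (t : ℝ) : Prop :=
  ∃ ρ h, ExtBy N M k e t ρ h

theorem ExtBy.mono {N : Lev w F X} {M : Md w} {e : Ed ι} {t t' ρ ρ' : ℝ} {h : Co k 1 X}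
    (H : ExtBy N M k e t' ρ h) (ht : t ≤ t') (hρ : ρ ≤ ρ') : ExtBy N M k e t ρ' h :=
  ⟨Sb.Z_mono (On_le (lo_mono ht)) H.1, Sb.van_mono (sb_mono (far_mono ht hρ)) H.2⟩

theorem Ext.mono {N : Lev w F X} {M : Md w} {e : Ed ι} {t t' : ℝ} (H : Ext N M k e t') (ht : t ≤ t') :
    Ext N M k e t :=
  let ⟨ρ, h, q⟩ := H; ⟨ρ, h, q.mono ht le_rfl⟩

theorem ext_of_ex {N : Lev w F X} {M : Md w} {e : Ed ι} {t ρ : ℝ} {h : Co k 1 X}
    (hz : h ∈ (On (lo (N.s e) t)).Z k k 1) (q : h - al N M k e ∈ (N.Sb (far N e t ρ)).Ex k k 1) :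
    Ext N M k e t := by
  obtain ⟨η, hη⟩ := Sb.mem_Ex.1 q
  refine ⟨ρ, h - cob k η, Submodule.sub_mem _ hz ?_, by rwa [sub_right_comm]⟩
  rw [Sb.mem_Z, cob_cob]; exact Submodule.zero_mem _



/-- case A: all cocycles of the side are exact far out -/
theorem far_ex_of_not (E : End w F k X) (M : Md w) (e : Ed ι) {u t t' : ℝ} (h0 : 0 < t) (h : t < t')
    (h1 : t' < 1) (hu : u ≤ t) (hn : ¬Ext E.toLev M k e u) : ∃ ρ, ∀ φ ∈ (On (lo (E.s e) t')).Z k k 1,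
      φ ∈ (E.Sb (far E.toLev e t ρ)).Ex k k 1 := by
  obtain ⟨ρ, H⟩ := exists_per' E M e h0 h h1 0
  refine ⟨ρ, fun φ hφ => ?_⟩
  obtain ⟨a, q⟩ := H φ (Sb.Z_mono (Sb.inf_le_left.trans (On_le far_le)) hφ)
  by_cases ha : a = 0
  · simpa [ha] using q
  · refine (hn (Ext.mono (ext_of_ex (h := a⁻¹ • φ) (ρ := ρ) (Submodule.smul_mem _ _
      (Sb.Z_mono (On_le (lo_mono h.le)) hφ)) ?_) hu)).elim
    simpa [smul_sub, smul_smul, inv_mul_cancel₀ ha] using Submodule.smul_mem _ a⁻¹ q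

/-- case B: all cocycles of the side are multiples of `h` far out -/
theorem far_ex_of_ext (E : End w F k X) (M : Md w) (e : Ed ι) {u t t' ρ₀ : ℝ} (h0 : 0 < t) (h : t < t')
    (h1 : t' < 1) (hu : t ≤ u) {g : Co k 1 X} (hg : ExtBy E.toLev M k e u ρ₀ g) :
    ∃ ρ, ∀ φ ∈ (On (lo (E.s e) t')).Z k k 1, ∃ a : k,
      φ - a • g ∈ (E.Sb (far E.toLev e t ρ)).Ex k k 1 := by
  obtain ⟨ρ, H⟩ := exists_per' E M e h0 h h1 0
  refine ⟨max ρ ρ₀, fun φ hφ => ?_⟩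
  obtain ⟨a, q⟩ := H φ (Sb.Z_mono (Sb.inf_le_left.trans (On_le far_le)) hφ)
  refine ⟨a, ?_⟩
  have := Submodule.sub_mem _ (Sb.Ex_mono (sb_mono (far_mono le_rfl (le_max_left ρ ρ₀))) q)
    (Submodule.smul_mem _ a (Submodule.mem_sup_right (hg.mono hu (le_max_right ρ ρ₀)).2))
  simpa [smul_sub] using this

variable (hX : Acy k (univ : Set X) univ) (hc : Hc0 k X k 2)
include hX hc

theorem cmp_far (N : Lev w F X) (e : Ed ι) {t ρ : ℝ} {φ : Co k 1 X}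
    (hφ : φ ∈ (On (lo (N.s e) t)).Z k k 1) (hf : φ ∈ (N.Sb (far N e t ρ)).Ex k k 1) :
    φ ∈ ZP k (lo (N.s e) t) k 1 ⊔ (On (lo (N.s e) t)).Ex k k 1 :=
  cmp_lo hX hc (sub_one_lt t) (N.cpt_win e ρ _ _) N.cv_open N.cv_cover hφ
    (Sb.Ex_mono (sb_mono fw_le_far) hf)

/-- **case A** -/
theorem case_A (E : End w F k X) (M : Md w) (e : Ed ι) {u t t' : ℝ} (h0 : 0 < t) (h : t < t')
    (h1 : t' < 1) (hu : u ≤ t) (hn : ¬Ext E.toLev M k e u) :
    (On (lo (E.s e) t')).Z k k 1 ≤ ZP k (lo (E.s e) t) k 1 ⊔ (On (lo (E.s e) t)).Ex k k 1 :=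
  let ⟨_, H⟩ := far_ex_of_not E M e h0 h h1 hu hn
  fun φ hφ => cmp_far hX hc _ e (Sb.Z_mono (On_le (lo_mono h.le)) hφ) (H φ hφ)

/-- **case B** -/
theorem case_B (E : End w F k X) (M : Md w) (e : Ed ι) {u t t' ρ₀ : ℝ} (h0 : 0 < t) (h : t < t')
    (h1 : t' < 1) (hu : t ≤ u) {g : Co k 1 X} (hg : ExtBy E.toLev M k e u ρ₀ g) :
    (On (lo (E.s e) t')).Z k k 1 ≤
      ZP k (lo (E.s e) t) k 1 ⊔ k ∙ g ⊔ (On (lo (E.s e) t)).Ex k k 1 := fun φ hφ => by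
  obtain ⟨ρ, H⟩ := far_ex_of_ext E M e h0 h h1 hu hg
  obtain ⟨a, q⟩ := H φ hφ
  obtain ⟨x, hx, y, hy, p⟩ := Submodule.mem_sup.1 (cmp_far hX hc _ e (Submodule.sub_mem _
    (Sb.Z_mono (On_le (lo_mono h.le)) hφ) (Submodule.smul_mem _ a (hg.mono hu le_rfl).1)) q)
  refine Submodule.mem_sup.2 ⟨x + a • g, Submodule.add_mem_sup hx
    (Submodule.smul_mem _ a (Submodule.mem_span_singleton_self g)), y, hy, ?_⟩
  rw [add_right_comm, p, sub_add_cancel]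

/-- case A for the side `{t < s e}` -/
theorem case_A_hi (E : End w F k X) (M : Md w) (e : Ed ι) {u t t' : ℝ} (h0 : 0 < t') (h : t' < t)
    (h1 : t < 1) (hu : t ≤ u) (hn : ¬Ext E.toLev M k (rev e) (1 - u)) :
    (On (hi (E.s e) t')).Z k k 1 ≤ ZP k (hi (E.s e) t) k 1 ⊔ (On (hi (E.s e) t)).Ex k k 1 := by
  simpa only [lo_rv] using case_A hX hc E M (rev e) (t := 1 - t) (t' := 1 - t') (by linarith)
    (by linarith) (by linarith) (by linarith) hn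


end Crest.Agent.N255.Wv

end
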