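import Crest.Agent.N255.Wv.Var

/-!
# Row 255 (helper77): equivariant families of wall variables, depth, hats
-/

set_option autoImplicit false
open Set Filter Topology

noncomputable section

namespace Crest.Agent.N255.Wv

open Tp Wi Dp Wn

variable {X Y : Type} [TopologicalSpace X] [TopologicalSpace Y] {k : Type} [Field k] {i : ℕ}

section pull

variable {A : Type} [AddCommGroup A] [Module k A] (φ : Y ≃ₜ X) {U : Set X} {U' : Set Y}

theorem pull_Cc {a : Co A i X} (h : a ∈ Cc k univ A i) : pull k (φ : C(Y, X)) a ∈ Cc k univ A i := by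
  obtain ⟨K, h1, -, h2⟩ := h
  exact ⟨φ ⁻¹' K, φ.isCompact_preimage.2 h1, subset_univ _,
    pull_mem (U := (φ ⁻¹' K)ᶜ) (fun _ hx => hx) h2⟩

theorem pull_ZP (hU : MapsTo φ U' U) {a : Co A i X} (h : a ∈ ZP k U A i) :
    pull k (φ : C(Y, X)) a ∈ ZP k U' A i :=
  ⟨pull_Cc φ h.1, by
    rw [SetLike.mem_coe, Sb.mem_Z, cob_pull]; exact pull_mem hU h.2⟩

theorem pull_BP (hU : MapsTo φ U' U) {a : Co A (i + 1) X} (h : a ∈ BP k U A (i + 1)) :
    pull k (φ : C(Y, X)) a ∈ BP k U' A (i + 1) := by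
  obtain ⟨η, h1, h2⟩ := mem_BP.1 h
  refine mem_BP.2 ⟨_, pull_Cc φ h1, ?_⟩
  rw [cob_pull, ← map_sub]; exact pull_mem hU h2

theorem pull_symm (a : Co A i X) : pull k (φ.symm : C(X, Y)) (pull k (φ : C(Y, X)) a) = a :=
  funext fun σ => congrArg a (ContinuousMap.ext fun x => φ.apply_symm_apply (σ x))

theorem symm_pull (a : Co A i Y) : pull k (φ : C(Y, X)) (pull k (φ.symm : C(X, Y)) a) = a :=
  pull_symm φ.symm a



end pull

/-- transport along a homeomorphism -/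
abbrev Var.map {A B : ℕ → Set X} (V : Var k i A B) (φ : Y ≃ₜ X) {A' B' : ℕ → Set Y}
    (hA : ∀ m, A' m = φ ⁻¹' A m) (hB : ∀ m, B' m = φ ⁻¹' B m) : Var k i A' B' where
  n := V.n
  h m j := pull k (φ : C(Y, X)) (V.h m j)
  mem m j := pull_ZP φ (fun _ hx => by rwa [hB] at hx) (V.mem m j)
  van m j := pull_mem (fun _ hx => by rwa [hA] at hx) (V.van m j)
  sp0 a ha := by
    obtain ⟨x, hx⟩ := V.sp0 _ (pull_ZP φ.symm (fun y hy => by simpa [hB] using hy) ha)
    refine ⟨x, ?_⟩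
    simpa [symm_pull] using pull_BP φ (U' := B' 2) (fun _ hx => by rwa [hB] at hx) hx
  sp m a ha := by
    obtain ⟨ψ, h1, x, hx⟩ := V.sp m _ (pull_ZP φ.symm (fun y hy => by simpa [hB] using hy) ha)
    refine ⟨_, pull_ZP φ (fun _ hx => by rwa [hB] at hx) h1, x, ?_⟩
    simpa [symm_pull] using pull_BP φ (U' := B' (m + 3)) (fun _ hx => by rwa [hB] at hx) hx
  ind m x hx := V.ind m x (by
    simpa [pull_symm] using pull_BP φ.symm (U' := B (m + 2)) (fun y hy => by simpa [hB] using hy) hx)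

/-- simultaneous correction on disjoint sets -/
theorem exists_hat {ι : Type} [Fintype ι] {U W : ι → Set X} (hUW : ∀ b, U b ⊆ W b)
    (hd : ∀ b b', b ≠ b' → Disjoint (W b) (W b')) {P : ι → Sb X} (hP : ∀ b, (P b).Le (On (U b)))
    (T : Set ι) (φ : Co k (i + 1) X) {ψ : ι → Co k (i + 1) X}
    (hψ : ∀ b, ψ b ∈ (On (W b)ᶜ).van k k (i + 1))
    (h : ∀ b ∈ T, ∃ η ∈ Cc k univ k i, φ - ψ b - cob k η ∈ (P b).van k k (i + 1)) :
    ∃ η ∈ Cc k univ k i, η ∈ (On (⋃ b ∈ T, U b)ᶜ).van k k i ∧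
      ∀ b ∈ T, φ - ∑ b', ψ b' - cob k η ∈ (P b).van k k (i + 1) := by
  classical
  choose! η h1 h2 using h
  let ξ : ι → Co k i X := fun b => if b ∈ T then ct (U b) (η b) else 0
  have x1 : ∀ b, ξ b ∈ (On (U b)ᶜ).van k k i := fun b => by
    simp only [ξ]; split_ifs; exacts [ct_van, zero_mem _]
  refine ⟨∑ b, ξ b, sum_mem fun b _ => ?_, sum_mem fun b _ => ?_, fun b hb => ?_⟩
  · simp only [ξ]; split_ifs with hb; exacts [ct_Cc (h1 b hb), zero_mem _]
  · simp only [ξ]; split_ifs with hb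
    · exact van_mono (compl_subset_compl.2 (subset_biUnion_of_mem (u := U) hb)) ct_van
    · exact zero_mem _
  · have hn : ∀ b' ∈ Finset.univ.erase b, U b ⊆ (W b')ᶜ := fun b' h' x hx =>
      disjoint_left.1 (hd b b' (Finset.ne_of_mem_erase h').symm) (hUW b hx)
    have a1 : ∑ b' ∈ Finset.univ.erase b, (ψ b' + cob k (ξ b')) ∈ (On (U b)).van k k (i + 1) :=
      sum_mem fun b' h' => add_mem (van_mono (hn b' h') (hψ b')) (Sb.cob_mem
        (van_mono ((hn b' h').trans (compl_subset_compl.2 (hUW b'))) (x1 b')))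
    have a2 : cob k (ξ b - η b) ∈ (On (U b)).van k k (i + 1) :=
      Sb.cob_mem (by simp only [ξ, if_pos hb]; exact ct_sub)
    have := sub_mem (h2 b hb) (Sb.van_mono (hP b) (add_mem a1 a2))
    convert this using 1
    rw [map_sum, ← Finset.add_sum_erase _ ψ (Finset.mem_univ b),
      ← Finset.add_sum_erase _ (fun b => cob k (ξ b)) (Finset.mem_univ b), Finset.sum_add_distrib,
      map_sub]
    abel

/-- classes with compact support die at a low level -/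
theorem nil_phi {s : C(X, ℝ)} {Z : Submodule k (Co k (i + 1) X)} (hZ : Z ≤ Cc k univ k (i + 1))
    {t : ℝ} (h : FR Z (BP k (lo s t) k (i + 1))) : ∃ C, Z ≤ BP k (lo s C) k (i + 1) := by
  refine h.le_of_directed (T := fun t => BP k (lo s t) k (i + 1)) (fun a b => ⟨min a b,
    BP_mono (lo_mono (min_le_left _ _)), BP_mono (lo_mono (min_le_right _ _))⟩) t fun z hz => ?_
  obtain ⟨K, h1, -, h2⟩ := hZ hz
  obtain ⟨C, hC⟩ := (h1.image s.continuous).bddBelow
  exact ⟨C, van_le_BP (van_mono (fun x hx hK => (hC ⟨x, hK, rfl⟩).not_gt hx) h2)⟩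

/-- oriented walls `J` with an action of `F`, classes `Cl`, windows -/
structure Lay (k : Type) [Field k] (i : ℕ) (F X J Cl : Type) [Group F] [TopologicalSpace X]
    [MulAction F X] [MulAction F J] where
  s : J → C(X, ℝ)
  c : J → Cl
  rep : Cl → J
  tf : J → F
  l : Cl → ℕ → ℝ
  r : Cl → ℕ → ℝ
  s_smul : ∀ (f : F) e x, s (f • e) (f • x) = s e x
  c_smul : ∀ (f : F) e, c (f • e) = c e
  c_rep : ∀ a, c (rep a) = a
  tf_rep : ∀ e, tf e • rep (c e) = e
  win : ∀ a, Win k i (s (rep a)) (l a) (r a)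
  tm : ∀ a, Tm k i (s (rep a)) (l a 0) (r a 0)
  l0 : ∀ a, 0 ≤ l a 0
  r0 : ∀ a, r a 0 ≤ 1

variable {F J Cl : Type} [Group F] [MulAction F X] [MulAction F J] [ContinuousConstSMul F X]

/-- the homeomorphism `x ↦ f⁻¹ x` -/
def iv (X : Type) [TopologicalSpace X] [MulAction F X] [ContinuousConstSMul F X] (f : F) : X ≃ₜ X :=
  Homeomorph.smul f⁻¹

theorem iv_apply (f : F) (x : X) : iv X f x = f⁻¹ • x := rfl

namespace Lay

variable (L : Lay k i F X J Cl)

/-- inner sides -/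
abbrev A (e : J) (m : ℕ) : Set X := lo (L.s e) (L.l (L.c e) m)

/-- outer sides -/
abbrev B (e : J) (m : ℕ) : Set X := lo (L.s e) (L.r (L.c e) m)

/-- the side behind `e'` lies deep in the side behind `e` -/
def Nx (e e' : J) : Prop := ∀ x, L.s e x + 1 ≤ L.s e' x

theorem lo_smul (f : F) (e : J) (t : ℝ) : lo (L.s (f • e)) t = iv X f ⁻¹' lo (L.s e) t := by
  ext x
  simp only [lo, mem_ofPred_eq, mem_preimage, iv_apply, ← L.s_smul f e, smul_inv_smul]

theorem lo_rep (e : J) (t : ℝ) : lo (L.s e) t = iv X (L.tf e) ⁻¹' lo (L.s (L.rep (L.c e))) t := by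
  rw [← lo_smul, L.tf_rep]

variable {L} in
omit [ContinuousConstSMul F X] in
theorem Nx.sub {e e' : J} (h : L.Nx e e') (m m' : ℕ) : L.B e' m' ⊆ L.A e m := fun x hx => by
  have h1 : L.s e' x < _ := hx
  have h2 := (L.win (L.c e')).ar.antitone (Nat.zero_le m')
  have h3 := (L.win (L.c e)).ml.monotone (Nat.zero_le m)
  have := h x
  show L.s e x < _
  linarith [L.l0 (L.c e), L.r0 (L.c e')]

omit [ContinuousConstSMul F X] in
theorem A_B (e : J) (m m' : ℕ) : L.A e m ⊆ L.B e m' := lo_mono ((L.win _).lt m m').le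


omit [ContinuousConstSMul F X] in
theorem B_anti (e : J) : Antitone (L.B e) := fun _ _ h => lo_mono ((L.win _).ar.antitone h)

/-- the depth flag -/
def Gd (n : ℕ) (e : J) : Submodule k (Co k (i + 1) X) :=
  G L.Nx (fun e => BP k (L.B e 2) k (i + 1)) n e

omit [ContinuousConstSMul F X] in
theorem hE (a b : J) (h : L.Nx a b) : BP k (L.B a 2) k (i + 1) ≤ BP k (L.B b 2) k (i + 1) :=
  BP_mono ((h.sub 0 2).trans (L.A_B a 0 2))

omit [ContinuousConstSMul F X] in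
theorem le_Gd (n : ℕ) (e : J) : BP k (L.B e 2) k (i + 1) ≤ L.Gd n e :=
  (G_zero (Nx := L.Nx) (E := fun e => BP k (L.B e 2) k (i + 1))).ge.trans
    (G_mono L.hE e (Nat.zero_le n))

theorem Gd_smul (f : F) {n : ℕ} {e : J} {a : Co k (i + 1) X} (h : a ∈ L.Gd n e) :
    pull k (iv X f : C(X, X)) a ∈ L.Gd n (f • e) := by
  refine G_map (MulAction.toPerm f) (fun a b h x => ?_) _ (fun a y hy => pull_BP _ ?_ hy) h
  · simpa [L.s_smul] using h (f • x)
  · intro x hx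
    have hx' : x ∈ lo (L.s (f • a)) (L.r (L.c (f • a)) 2) := hx
    rwa [L.c_smul, lo_smul] at hx'

theorem Gd_smul_iff (f : F) {n : ℕ} {e : J} {a : Co k (i + 1) X} :
    pull k (iv X f : C(X, X)) a ∈ L.Gd n (f • e) ↔ a ∈ L.Gd n e := by
  refine ⟨fun h => ?_, L.Gd_smul f⟩
  have := L.Gd_smul f⁻¹ h
  rw [inv_smul_smul] at this
  convert this using 1
  exact funext fun σ => congrArg a (ContinuousMap.ext fun x => by simp [iv_apply])

theorem exists_nil [Finite Cl] : ∃ N, ∀ e, ZP k (L.A e 1) k (i + 1) ≤ L.Gd N e := by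
  have h1 : ∀ a, ∀ᶠ C in atBot, ZP k (lo (L.s (L.rep a)) (L.l a 1)) k (i + 1) ≤
      BP k (lo (L.s (L.rep a)) C) k (i + 1) := fun a => by
    obtain ⟨C, hC⟩ := nil_phi inf_le_left
      ((L.tm a).lo _ _ le_rfl ((L.win a).ml Nat.zero_lt_one) ((L.win a).lt 1 0).le)
    exact (eventually_le_atBot C).mono fun C' h => hC.trans (BP_mono (lo_mono h))
  obtain ⟨C, hC⟩ := (eventually_all.2 h1).exists
  obtain ⟨N, hN⟩ := exists_nat_ge (1 - C)
  refine ⟨N, fun e a ha => mem_G.2 fun e' h => ?_⟩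
  have h2 := hC (L.c e) (pull_ZP (iv X (L.tf e)).symm (U := L.A e 1) (fun x hx => by
    simp only [A]; rw [L.lo_rep e]; simpa using hx) ha)
  have h3 := pull_BP (iv X (L.tf e)) (U' := L.B e' 2) (fun x hx => ?_) h2
  · rwa [symm_pull] at h3
  · have := h.lev (s := fun e x => -L.s e x) (fun a b h x => by linarith [h x]) x
    have h4 : L.s e' x < _ := hx
    have h5 := (L.win (L.c e')).ar.antitone (Nat.zero_le 2)
    have : x ∈ lo (L.s e) C := show L.s e x < C by linarith [L.r0 (L.c e')]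
    rwa [L.lo_rep e] at this

end Lay

/-- variables for every class, adapted to the depth -/
structure Fam (L : Lay k i F X J Cl) where
  V : ∀ a, Var k i (fun m => lo (L.s (L.rep a)) (L.l a m)) fun m => lo (L.s (L.rep a)) (L.r a m)
  N : ℕ
  nil : ∀ e, ZP k (L.A e 1) k (i + 1) ≤ L.Gd N e
  ada : ∀ a n (x : Fin ((V a).n 0) → k), ∑ j, x j • (V a).h 0 j ∈ L.Gd n (L.rep a) →
    ∀ j, (V a).h 0 j ∉ L.Gd n (L.rep a) → x j = 0

theorem Lay.exists_fam [Finite Cl] (L : Lay k i F X J Cl) : Nonempty (Fam L) := by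
  obtain ⟨N, hN⟩ := L.exists_nil
  have key : ∀ a, ∃ V : Var k i (fun m => lo (L.s (L.rep a)) (L.l a m))
      fun m => lo (L.s (L.rep a)) (L.r a m), ∀ n (x : Fin (V.n 0) → k),
      ∑ j, x j • V.h 0 j ∈ L.Gd n (L.rep a) → ∀ j, V.h 0 j ∉ L.Gd n (L.rep a) → x j = 0 := fun a => by
    obtain ⟨n₀, x₀, h⟩ := exists_ada ((L.win a).fr (L.tm a) 1) (isChain_G L.hE (L.rep a))
      IsChain.empty
    obtain ⟨V, e, hV⟩ := (L.win a).exists_var (L.tm a) x₀ h.mem h.span h.ind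
    subst e
    obtain rfl : V.h 0 = x₀ := funext hV
    refine ⟨V, fun n x hx j hj => h.ada _ (.inl ⟨n, rfl⟩) x (Submodule.mem_sup_left hx) j ?_⟩
    rwa [sup_eq_left.2]
    have := L.le_Gd n (L.rep a)
    simp only [Lay.B, L.c_rep] at this
    exact this
  choose V hV using key
  exact ⟨⟨V, N, hN, hV⟩⟩

namespace Fam

variable {L : Lay k i F X J Cl} (W : Fam L)

/-- the variables behind the oriented wall `e` -/
abbrev at' (e : J) : Var k i (L.A e) (L.B e) :=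
  (W.V (L.c e)).map (iv X (L.tf e)) (fun _ => L.lo_rep e _) fun _ => L.lo_rep e _


theorem at_h (e : J) (m : ℕ) (j : Fin ((W.V (L.c e)).n m)) :
    (W.at' e).h m j = pull k (iv X (L.tf e) : C(X, X)) ((W.V (L.c e)).h m j) := rfl

/-- the depth of a variable -/
def dp (a : Cl) (m : ℕ) (j : Fin ((W.V a).n m)) : ℕ :=
  Dp.dp (fun n => L.Gd n (L.rep a)) ((W.V a).h m j)

theorem at_mem {e : J} {n m : ℕ} {j : Fin ((W.V (L.c e)).n m)} :
    (W.at' e).h m j ∈ L.Gd n e ↔ (W.V (L.c e)).h m j ∈ L.Gd n (L.rep (L.c e)) := by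
  rw [at_h, ← L.Gd_smul_iff (L.tf e) (e := L.rep (L.c e)), L.tf_rep]

theorem dp_at (e : J) (m : ℕ) (j : Fin ((W.V (L.c e)).n m)) :
    Dp.dp (fun n => L.Gd n e) ((W.at' e).h m j) = W.dp (L.c e) m j :=
  congrArg sInf (Set.ext fun _ => W.at_mem)

theorem h_mem (e : J) (m : ℕ) (j : Fin ((W.V (L.c e)).n m)) : (W.at' e).h m j ∈ L.Gd W.N e :=
  W.nil e (ZP_mono (L.A_B e 1 _) ((W.at' e).mem m j))

omit [ContinuousConstSMul F X] in
theorem dp_le (a : Cl) (m : ℕ) (j : Fin ((W.V a).n m)) : W.dp a m j ≤ W.N := by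
  refine Dp.dp_le (C := fun n => L.Gd n (L.rep a)) (W.nil _ (ZP_mono ?_ ((W.V a).mem m j)))
  simp only [Lay.A, L.c_rep]
  exact lo_mono ((L.win a).lt _ _).le

theorem ada_at (e : J) : Ada (ZP k (L.B e 1) k (i + 1)) (BP k (L.B e 2) k (i + 1))
    (range fun n => L.Gd n e) ((W.at' e).h 0) := by
  refine ⟨(W.at' e).mem 0, (W.at' e).sp0, (W.at' e).ind 0, ?_⟩
  rintro _ ⟨n, rfl⟩ x hx j hj
  have e1 : L.Gd n e ⊔ BP k (L.B e 2) k (i + 1) = L.Gd n e :=
    sup_eq_left.2 (L.le_Gd n e)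
  simp only [e1] at hx hj
  refine W.ada (L.c e) n x ?_ j (mt W.at_mem.2 hj)
  rw [← L.Gd_smul_iff (L.tf e), L.tf_rep, map_sum]
  simpa only [map_smul] using hx

/-- **transfer**: a class behind `e` is, deep behind `e`, a combination of classes of scale zero and of
smaller depth -/
theorem transfer {e e' : J} (h : L.Nx e e') (m : ℕ) (j : Fin ((W.V (L.c e)).n m)) :
    ∃ x : Fin ((W.V (L.c e')).n 0) → k,
      (∀ b, x b ≠ 0 → m = 0 ∧ W.dp (L.c e') 0 b < W.dp (L.c e) m j) ∧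
      (W.at' e).h m j - ∑ b, x b • (W.at' e').h 0 b ∈ BP k (L.B e' 2) k (i + 1) := by
  cases m with
  | succ m => exact ⟨0, fun _ h => (h rfl).elim, by
      simpa using van_le_BP (van_mono (h.sub m 2) ((W.at' e).van m j))⟩
  | zero =>
    obtain ⟨x, hx⟩ := (W.at' e').sp0 _
      (ZP_mono ((h.sub 0 1).trans (L.A_B e 0 1)) ((W.at' e).mem 0 j))
    refine ⟨x, fun b hb => ⟨rfl, ?_⟩, hx⟩
    have := (W.ada_at e').dp_add_le L.hE (St.one h) (fun n => ⟨n, rfl⟩) (W.h_mem e 0 j) hx hb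
    rw [← W.dp_at, ← W.dp_at]
    exact this

variable {ι : Type} [Fintype ι] {f : ι → J} {K : ℕ}

/-- hats of arbitrary cochains: `f b` are the far sides, `φ` is corrected on the sides in `T` -/
theorem hat_gen (hd : ∀ b b', b ≠ b' → Disjoint (L.B (f b) 1) (L.B (f b') 1)) (T : Set ι)
    {P : ι → Sb X} (hP : ∀ b, (P b).Le (On (L.B (f b) 2))) (φ : Co k (i + 1) X)
    {Q : ∀ b, Fin ((W.V (L.c (f b))).n 0) → Prop}
    (h : ∀ b ∈ T, ∃ x : Fin ((W.V (L.c (f b))).n 0) → k, (∀ j, x j ≠ 0 → Q b j) ∧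
      ∃ η ∈ Cc k univ k i, φ - ∑ j, x j • (W.at' (f b)).h 0 j - cob k η ∈ (P b).van k k (i + 1)) :
    ∃ x : ∀ b, (W.at' (f b)).Ix K → k,
      (∀ b q, x b q ≠ 0 → b ∈ T ∧ ∃ j, q = ⟨⟨0, K.succ_pos⟩, j⟩ ∧ Q b j) ∧
      ∃ η ∈ Cc k univ k i, η ∈ (On (⋃ b ∈ T, L.B (f b) 2)ᶜ).van k k i ∧ ∀ b ∈ T,
        φ - ∑ b', ∑ q, x b' q • Var.cc (fun m => L.B (f b') (m + 1)) q - cob k η ∈
          (P b).van k k (i + 1) := by
  classical
  choose! x h1 η h2 h3 using h
  let y : ∀ b, (W.at' (f b)).Ix K → k := fun b q => if b ∈ T then Pi.single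
    (M := fun a : Fin (K + 1) => Fin ((W.at' (f b)).n a) → k) ⟨0, K.succ_pos⟩ (x b) q.1 q.2 else 0
  have hy : ∀ b q, y b q ≠ 0 → b ∈ T ∧ ∃ j, q = ⟨⟨0, K.succ_pos⟩, j⟩ ∧ Q b j := fun b q hq => by
    simp only [y] at hq
    split_ifs at hq with hb
    · obtain ⟨⟨a, ha⟩, j⟩ := q
      obtain rfl : a = 0 := by
        by_contra h0
        exact hq (Var.single_eq_zero ⟨0, K.succ_pos⟩ (x b) h0)
      exact ⟨hb, j, rfl, h1 b hb j (by simpa using hq)⟩
    · exact (hq rfl).elim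
  refine ⟨y, hy, exists_hat (fun b => L.B_anti (f b) (Nat.le_succ 1)) hd hP T φ
    (fun b => sum_mem fun q _ => ?_) fun b hb => ⟨η b, h2 b hb, ?_⟩⟩
  · by_cases hq : y b q = 0
    · simp [hq]
    · obtain ⟨-, j, rfl, -⟩ := hy b q hq
      exact Submodule.smul_mem _ _ ct_van
  · simp only [y, if_pos hb]
    rw [Var.sum_single]
    have : ∑ j, x b j • (Var.cc (fun m => L.B (f b) (m + 1))
        (⟨⟨0, K.succ_pos⟩, j⟩ : (W.at' (f b)).Ix K) - (W.at' (f b)).h 0 j) ∈ (P b).van k k (i + 1) :=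
      sum_mem fun j _ => Submodule.smul_mem _ _ (Sb.van_mono (hP b)
        (van_mono (L.B_anti (f b) (Nat.le_succ 1)) ct_sub))
    convert sub_mem (h3 b hb) this using 1
    simp only [smul_sub, Finset.sum_sub_distrib]; abel


/-- **hats** of the cut classes behind `e`: they vanish on the far sides `f b`, `b ∈ T` -/
theorem hat (hd : ∀ b b', b ≠ b' → Disjoint (L.B (f b) 1) (L.B (f b') 1)) (T : Set ι) {e : J}
    (he : ∀ b ∈ T, L.Nx e (f b)) (q : (W.at' e).Ix K) :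
    ∃ x : ∀ b, (W.at' (f b)).Ix K → k,
      (∀ b q', x b q' ≠ 0 → b ∈ T ∧ Var.sc q' = 0 ∧ Var.sc q = 0 ∧
        W.dp (L.c (f b)) q'.1 q'.2 < W.dp (L.c e) q.1 q.2) ∧
      ∃ η ∈ Cc k univ k i, η ∈ (On (⋃ b ∈ T, L.B (f b) 2)ᶜ).van k k i ∧ ∀ b ∈ T,
        Var.cc (fun m => L.B e (m + 1)) q -
          ∑ b', ∑ q', x b' q' • Var.cc (fun m => L.B (f b') (m + 1)) q' - cob k η ∈
          (On (L.B (f b) 2)).van k k (i + 1) := by
  obtain ⟨x, h1, h2⟩ := W.hat_gen (K := K) hd T (fun _ => Sb.Le.refl _)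
    (Var.cc (fun m => L.B e (m + 1)) q)
    (Q := fun b j => Var.sc q = 0 ∧ W.dp (L.c (f b)) 0 j < W.dp (L.c e) q.1 q.2) fun b hb => by
      obtain ⟨x, a1, a2⟩ := W.transfer (he b hb) q.1 q.2
      obtain ⟨η, b1, b2⟩ := mem_BP.1 a2
      refine ⟨x, a1, η, b1, ?_⟩
      have := van_mono (((he b hb).sub 0 2).trans (L.A_B e 0 _))
        (Var.cc_sub (C := fun m => L.B e (m + 1)) q)
      convert add_mem this b2 using 1
      simp only [Var.cl]; abel
  refine ⟨x, fun b q' hq => ?_, h2⟩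
  obtain ⟨a, j, rfl, h⟩ := h1 b q' hq
  exact ⟨a, rfl, h⟩

end Fam

end Crest.Agent.N255.Wv

end
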